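import Mathlib

/-!
# P113: definitions

Halting detection by particle trajectories of forced Navier-Stokes flows from rest.

Functions on the flat torus `𝕋³ = (ℝ/ℤ)³` are `ℤ³`-periodic functions on `ℝ³ = Fin 3 → ℝ`.
-/

open MeasureTheory Set
open scoped ContDiff

namespace Vale.Agent.P113

/-! ## Bumps and admissible functions -/

/-- `ρ(s) = e^{-1/(1-s²)}` for `|s| < 1`, and `ρ(s) = 0` otherwise. -/
noncomputable def rho (s : ℝ) : ℝ := if |s| < 1 then Real.exp (-1 / (1 - s ^ 2)) else 0

/-- `κ = ∫ ρ`. -/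
noncomputable def kappa : ℝ := ∫ s, rho s

/-- `σ(s) = ∫_{-∞}^s ρ`. -/
noncomputable def sigma (s : ℝ) : ℝ := ∫ r in Iic s, rho r

/-- `π_ℓ(s) = σ(s) - σ(s - ℓ)`. -/
noncomputable def plateau (l s : ℝ) : ℝ := sigma s - sigma (s - l)

/-- The `1`-periodization `P[g](y) = ∑_{m ∈ ℤ} g(y + m)`. -/
noncomputable def periodize (g : ℝ → ℝ) (y : ℝ) : ℝ := ∑' m : ℤ, g (y + m)

/-- Codes of rational numbers: sign, numerator, denominator minus one. -/
abbrev RatCode : Type := Bool × ℕ × ℕ

/-- The rational number with a given code: `(true, n, d)` is a code of `n / (d + 1)` and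
`(false, n, d)` is a code of `-n / (d + 1)`. -/
def ratVal (r : RatCode) : ℚ := (if r.1 then 1 else -1) * ((r.2.1 : ℚ) / ((r.2.2 : ℚ) + 1))

/-- Data of a bump. With `kind = inl j` it is the function `s ↦ s^k ρ^{(j)}(a s - b)`, with
`kind = inr ℓ` it is `s ↦ s^k π_ℓ(a s - b)`. -/
structure Bump where
  kind : ℕ ⊕ RatCode
  k : ℕ
  a : RatCode
  b : RatCode

/-- The conditions `a ≠ 0` and `ℓ > 0`. -/
def Bump.Valid (g : Bump) : Prop := ratVal g.a ≠ 0 ∧ ∀ l, g.kind = Sum.inr l → 0 < ratVal l

/-- The function given by the data of a bump. -/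
noncomputable def Bump.fn (g : Bump) (s : ℝ) : ℝ :=
  s ^ g.k * Sum.elim (fun j => iteratedDeriv j rho (ratVal g.a * s - ratVal g.b))
    (fun l => plateau (ratVal l) (ratVal g.a * s - ratVal g.b)) g.kind

/-- Data of a term `c θ(t) h₁(x₁) h₂(x₂) h₃(x₃)` of an admissible function, where
`c = q ν^m κ^n ∏ ln r_i`, `θ` is the product of the factors listed in `time` (a factor `(false, g)`
stands for `g(t)`, a factor `(true, g)` for `P[g](t)`) and `h_i` is the product of the
periodizations of the bumps listed in `space i` (an empty product is `1`). -/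
structure Term where
  q : RatCode
  m : ℕ
  n : ℤ
  logs : List RatCode
  time : List (Bool × Bump)
  space : Fin 3 → List Bump

/-- The bumps are bumps and the `r_i` are positive. -/
def Term.Valid (τ : Term) : Prop :=
  (∀ r ∈ τ.logs, 0 < ratVal r) ∧ (∀ g ∈ τ.time, g.2.Valid) ∧ ∀ i, ∀ g ∈ τ.space i, g.Valid

/-- A term is periodic if `θ` is a product of periodizations only (or `1`). -/
def Term.isPeriodic (τ : Term) : Bool := τ.time.all fun g => g.1

/-- The value at `(t, x)` of the function given by a term, for the viscosity `ν`. -/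
noncomputable def Term.eval (ν : ℝ) (τ : Term) (t : ℝ) (x : Fin 3 → ℝ) : ℝ :=
  ratVal τ.q * ν ^ τ.m * kappa ^ τ.n * (τ.logs.map fun r => Real.log (ratVal r)).prod *
    (τ.time.map fun g => if g.1 then periodize g.2.fn t else g.2.fn t).prod *
    ∏ i, ((τ.space i).map fun g => periodize g.fn (x i)).prod

/-- The force given by three finite lists of terms, one for each component. -/
noncomputable def force (ν : ℝ) (L : Fin 3 → List Term) (t : ℝ) (x : Fin 3 → ℝ) : Fin 3 → ℝ :=
  fun i => ((L i).map fun τ => τ.eval ν t x).sum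

/-- `Bump` as a product type. -/
abbrev BumpTuple : Type := (ℕ ⊕ RatCode) × ℕ × RatCode × RatCode

/-- The components of a bump. -/
def Bump.toTuple (g : Bump) : BumpTuple := (g.kind, g.k, g.a, g.b)

/-- The bump with given components. -/
def Bump.ofTuple (g : BumpTuple) : Bump := ⟨g.1, g.2.1, g.2.2.1, g.2.2.2⟩

theorem Bump.ofTuple_toTuple : Function.LeftInverse Bump.ofTuple Bump.toTuple := fun _ => rfl

theorem Bump.toTuple_ofTuple : Function.RightInverse Bump.ofTuple Bump.toTuple := fun _ => rfl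

/-- The equivalence of `Bump` and a product type. -/
def Bump.equiv : Bump ≃ BumpTuple :=
  ⟨Bump.toTuple, Bump.ofTuple, Bump.ofTuple_toTuple, Bump.toTuple_ofTuple⟩

instance : Primcodable Bump := Primcodable.ofEquiv BumpTuple Bump.equiv

/-- `Term` as a product type. -/
abbrev TermTuple : Type :=
  RatCode × ℕ × ℤ × List RatCode × List (Bool × Bump) × (Fin 3 → List Bump)

/-- The components of a term. -/
def Term.toTuple (τ : Term) : TermTuple := (τ.q, τ.m, τ.n, τ.logs, τ.time, τ.space)

/-- The term with given components. -/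
def Term.ofTuple (τ : TermTuple) : Term :=
  ⟨τ.1, τ.2.1, τ.2.2.1, τ.2.2.2.1, τ.2.2.2.2.1, τ.2.2.2.2.2⟩

theorem Term.ofTuple_toTuple : Function.LeftInverse Term.ofTuple Term.toTuple := fun _ => rfl

theorem Term.toTuple_ofTuple : Function.RightInverse Term.ofTuple Term.toTuple := fun _ => rfl

/-- The equivalence of `Term` and a product type. -/
def Term.equiv : Term ≃ TermTuple :=
  ⟨Term.toTuple, Term.ofTuple, Term.ofTuple_toTuple, Term.toTuple_ofTuple⟩

instance : Primcodable Term := Primcodable.ofEquiv TermTuple Term.equiv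

/-! ## Turing machines -/

/-- A deterministic one-tape Turing machine with finitely many states and symbols (natural
numbers): the initial state, the blank symbol, the list of the halting states, and a finite table.
An entry `((q, a), (q', b, e))` of the table means: in state `q`, reading `a`, write `b`, go to
state `q'` and move the head by `e - 1` cells (`e = 0`: left, `e = 1`: stay, `e = 2`: right). -/
structure Machine where
  start : ℕ
  blank : ℕ
  halting : List ℕ
  table : List ((ℕ × ℕ) × (ℕ × ℕ × Fin 3))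

/-- `Machine` as a product type. -/
abbrev MachineTuple : Type := ℕ × ℕ × List ℕ × List ((ℕ × ℕ) × (ℕ × ℕ × Fin 3))

/-- The components of a machine. -/
def Machine.toTuple (M : Machine) : MachineTuple := (M.start, M.blank, M.halting, M.table)

/-- The machine with given components. -/
def Machine.ofTuple (M : MachineTuple) : Machine := ⟨M.1, M.2.1, M.2.2.1, M.2.2.2⟩

theorem Machine.ofTuple_toTuple : Function.LeftInverse Machine.ofTuple Machine.toTuple :=
  fun _ => rfl

theorem Machine.toTuple_ofTuple : Function.RightInverse Machine.ofTuple Machine.toTuple :=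
  fun _ => rfl

/-- The equivalence of `Machine` and a product type. -/
def Machine.equiv : Machine ≃ MachineTuple :=
  ⟨Machine.toTuple, Machine.ofTuple, Machine.ofTuple_toTuple, Machine.toTuple_ofTuple⟩

instance : Primcodable Machine := Primcodable.ofEquiv MachineTuple Machine.equiv

/-- A configuration: state, position of the head, content of the two-sided tape. -/
structure Config where
  state : ℕ
  head : ℤ
  tape : ℤ → ℕ

/-- One step. The first entry of the table for the current state and symbol is used; the machine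
stays in its configuration if there is none. -/
def Machine.step (M : Machine) (c : Config) : Config :=
  match M.table.lookup (c.state, c.tape c.head) with
  | none => c
  | some (q, b, e) => ⟨q, c.head + ((e : ℕ) : ℤ) - 1, Function.update c.tape c.head b⟩

/-- The initial configuration on the input `w`: the word `w` is written on the cells
`0, 1, …, |w| - 1` of an otherwise blank tape, and the head is at the cell `0`. -/
def Machine.init (M : Machine) (w : List ℕ) : Config :=
  ⟨M.start, 0, fun z => if 0 ≤ z then w.getD z.toNat M.blank else M.blank⟩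

/-- `M` halts on `w`: it reaches a halting state after finitely many steps, possibly none. -/
def Machine.HaltsOn (M : Machine) (w : List ℕ) : Prop :=
  ∃ n : ℕ, (M.step^[n] (M.init w)).state ∈ M.halting

/-! ## Navier-Stokes flows on `𝕋³` -/

/-- `g` is `ℤ³`-periodic, i.e. a function on `𝕋³`. -/
def IsPeriodic {α : Type} (g : (Fin 3 → ℝ) → α) : Prop :=
  ∀ (x : Fin 3 → ℝ) (k : Fin 3 → ℤ), g (fun i => x i + k i) = g x

/-- Vector fields depending on time. -/
abbrev Field : Type := ℝ → (Fin 3 → ℝ) → (Fin 3 → ℝ)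

/-- `g` is continuous on `I × 𝕋³`. -/
def ContOn {α : Type} [TopologicalSpace α] (I : Set ℝ) (g : ℝ → (Fin 3 → ℝ) → α) : Prop :=
  ContinuousOn (fun y : ℝ × (Fin 3 → ℝ) => g y.1 y.2) (I ×ˢ univ)

/-- `ut` is the time derivative of `u` (one-sided at the end points of `I`). -/
def IsTimeDeriv (I : Set ℝ) (u ut : Field) : Prop :=
  ∀ t ∈ I, ∀ x j, HasDerivWithinAt (fun s => u s x j) (ut t x j) I t

/-- `Du i` is the derivative of `u` in the variable `x_i`. -/
def IsSpaceDeriv (I : Set ℝ) (u : Field) (Du : Fin 3 → Field) : Prop :=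
  ∀ t ∈ I, ∀ x i j, HasDerivAt (fun s => u t (Function.update x i s) j) (Du i t x j) (x i)

/-- `DDu k i` is the derivative of `Du i` in the variable `x_k`. -/
def IsSpaceDeriv₂ (I : Set ℝ) (Du : Fin 3 → Field) (DDu : Fin 3 → Fin 3 → Field) : Prop :=
  ∀ t ∈ I, ∀ x k i j,
    HasDerivAt (fun s => Du i t (Function.update x k s) j) (DDu k i t x j) (x k)

/-- `Dp i` is the derivative of `p` in the variable `x_i`. -/
def IsGradient (I : Set ℝ) (p : ℝ → (Fin 3 → ℝ) → ℝ) (Dp : Fin 3 → ℝ → (Fin 3 → ℝ) → ℝ) : Prop :=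
  ∀ t ∈ I, ∀ x i, HasDerivAt (fun s => p t (Function.update x i s)) (Dp i t x) (x i)

/-- The momentum equation `∂_t u + (u·∇)u = -∇p + ν Δu + f` at the times `t ∈ I`. -/
def Momentum (ν : ℝ) (f : Field) (I : Set ℝ) (u ut : Field) (Du : Fin 3 → Field)
    (DDu : Fin 3 → Fin 3 → Field) (Dp : Fin 3 → ℝ → (Fin 3 → ℝ) → ℝ) : Prop :=
  ∀ t ∈ I, ∀ x j, ut t x j + ∑ i, u t x i * Du i t x j =
    -Dp j t x + ν * ∑ i, DDu i i t x j + f t x j

/-- Classical solutions of
`∂_t u + (u·∇)u = -∇p + ν Δu + f`, `div u = 0`, `u(0,·) = 0` for the times `t ∈ I`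
(`I = [0, T]` or `[0, ∞)`): the equations hold pointwise, and `u`, `∂_t u` (here `ut`), the
derivatives `∂_i u` (here `Du i`), `∂_k ∂_i u` (here `DDu k i`), `p` and `∂_i p` (here `Dp i`) are
continuous; `p` has mean zero. -/
structure IsClassicalSolution (ν : ℝ) (f : Field) (I : Set ℝ) (u : Field)
    (p : ℝ → (Fin 3 → ℝ) → ℝ) : Prop where
  periodic_u : ∀ t ∈ I, IsPeriodic (u t)
  periodic_p : ∀ t ∈ I, IsPeriodic (p t)
  initial : ∀ x, u 0 x = 0
  mean_zero : ∀ t ∈ I, ∫ x in Icc (0 : Fin 3 → ℝ) 1, p t x = 0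
  cont_u : ContOn I u
  cont_p : ContOn I p
  eqs : ∃ (ut : Field) (Du : Fin 3 → Field) (DDu : Fin 3 → Fin 3 → Field)
    (Dp : Fin 3 → ℝ → (Fin 3 → ℝ) → ℝ),
    ContOn I ut ∧ (∀ i, ContOn I (Du i)) ∧ (∀ k i, ContOn I (DDu k i)) ∧
    (∀ i, ContOn I (Dp i)) ∧ IsTimeDeriv I u ut ∧ IsSpaceDeriv I u Du ∧
    IsSpaceDeriv₂ I Du DDu ∧ IsGradient I p Dp ∧ Momentum ν f I u ut Du DDu Dp ∧
    ∀ t ∈ I, ∀ x, ∑ i, Du i t x i = 0

/-- `(u, p)` is a global smooth solution, unique among the classical solutions on each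
`[0, T]`. -/
def IsUniqueSmoothSolution (ν : ℝ) (f : ℝ → (Fin 3 → ℝ) → (Fin 3 → ℝ))
    (u : ℝ → (Fin 3 → ℝ) → (Fin 3 → ℝ)) (p : ℝ → (Fin 3 → ℝ) → ℝ) : Prop :=
  ContDiffOn ℝ ∞ (fun y : ℝ × (Fin 3 → ℝ) => u y.1 y.2) (Ici 0 ×ˢ univ) ∧
  ContDiffOn ℝ ∞ (fun y : ℝ × (Fin 3 → ℝ) => p y.1 y.2) (Ici 0 ×ˢ univ) ∧
  IsClassicalSolution ν f (Ici 0) u p ∧
  ∀ T : ℝ, 0 < T → ∀ v π, IsClassicalSolution ν f (Icc 0 T) v π →
    ∀ t ∈ Icc 0 T, ∀ x, v t x = u t x ∧ π t x = p t x

/-- `X` is the trajectory of `a` (lifted to `ℝ³`). -/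
def IsTrajectory (u : ℝ → (Fin 3 → ℝ) → (Fin 3 → ℝ)) (a : Fin 3 → ℝ) (X : ℝ → Fin 3 → ℝ) :
    Prop :=
  X 0 = a ∧ ∀ t, 0 ≤ t → HasDerivWithinAt X (u t (X t)) (Ici 0) t

/-- The class of `x` in `𝕋³` lies in the image `O` of the open box with corners `lo`, `hi`. -/
def InBox (lo hi : Fin 3 → ℚ) (x : Fin 3 → ℝ) : Prop :=
  ∃ k : Fin 3 → ℤ, ∀ i, (lo i : ℝ) < x i + k i ∧ x i + k i < hi i

/-! ## Force compilers -/

/-- `C` is a force compiler: it is computable, it outputs admissible terms, the terms which are not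
periodic vanish for `t ≥ T₀`, and the list of the periodic terms depends on the machine only. -/
structure IsForceCompiler (C : Machine × List ℕ → Fin 3 → List Term) (T₀ : ℝ) : Prop where
  computable : Computable C
  valid : ∀ Mw i, ∀ τ ∈ C Mw i, τ.Valid
  vanish : ∀ Mw i, ∀ τ ∈ C Mw i, τ.isPeriodic = false →
    ∀ ν t x, T₀ ≤ t → τ.eval ν t x = 0
  periodic : ∀ M w w' i, (C (M, w) i).filter Term.isPeriodic = (C (M, w') i).filter Term.isPeriodic

/-- For the viscosity `ν`, the rational point `a`, the box with corners `lo`, `hi` and the force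
compiler `C`: the flow detects halting. -/
def DetectsHalting (ν : ℝ) (a lo hi : Fin 3 → ℚ) (C : Machine × List ℕ → Fin 3 → List Term) :
    Prop :=
  ∀ (M : Machine) (w : List ℕ), ∃ (u : ℝ → (Fin 3 → ℝ) → (Fin 3 → ℝ)) (p : ℝ → (Fin 3 → ℝ) → ℝ),
    IsUniqueSmoothSolution ν (force ν (C (M, w))) u p ∧
    (∃ X, IsTrajectory u (fun i => a i) X) ∧
    ∀ X, IsTrajectory u (fun i => a i) X →
      ((∃ t : ℝ, 0 ≤ t ∧ InBox lo hi (X t)) ↔ M.HaltsOn w)

/-- Q1, positive answer, for all real `ν > 0` and with one compiler for all `ν`. -/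
def Statement : Prop :=
  ∃ (a lo hi : Fin 3 → ℚ) (C : Machine × List ℕ → Fin 3 → List Term) (T₀ : ℝ),
    (∀ i, lo i < hi i) ∧ IsForceCompiler C T₀ ∧ ∀ ν : ℝ, 0 < ν → DetectsHalting ν a lo hi C

end Vale.Agent.P113
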