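import Vale.Agent.P113.Defs

/-!
# P113: interface between the flow part (B), the uniqueness part (C) and the discrete part (D)

The statements of the modules as `Prop`s (no sorry here).
-/

open MeasureTheory Set
open scoped ContDiff

namespace Vale.Agent.P113

/-! ## Planar affine rules on boxes -/

/-- A closed rational box `[x0, x1] × [y0, y1]`. -/
structure Box where
  x0 : ℚ
  x1 : ℚ
  y0 : ℚ
  y1 : ℚ

/-- membership -/
def Box.Mem (B : Box) (p : ℚ × ℚ) : Prop := B.x0 ≤ p.1 ∧ p.1 ≤ B.x1 ∧ B.y0 ≤ p.2 ∧ p.2 ≤ B.y1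

/-- inside the open unit square -/
def Box.Inside (B : Box) : Prop := 0 < B.x0 ∧ B.x0 ≤ B.x1 ∧ B.x1 < 1 ∧ 0 < B.y0 ∧ B.y0 ≤ B.y1 ∧ B.y1 < 1

/-- disjoint closed boxes -/
def Box.Sep (B B' : Box) : Prop := B.x1 < B'.x0 ∨ B'.x1 < B.x0 ∨ B.y1 < B'.y0 ∨ B'.y1 < B.y0

/-- An affine rule: source box `src`, `(x, y) ↦ (tx + a (x - x0), ty + b (y - y0))`. -/
structure Rule where
  src : Box
  a : ℚ
  b : ℚ
  tx : ℚ
  ty : ℚ

def Rule.map (r : Rule) (p : ℚ × ℚ) : ℚ × ℚ :=
  (r.tx + r.a * (p.1 - r.src.x0), r.ty + r.b * (p.2 - r.src.y0))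

def Rule.tgt (r : Rule) : Box :=
  ⟨r.tx, r.tx + r.a * (r.src.x1 - r.src.x0), r.ty, r.ty + r.b * (r.src.y1 - r.src.y0)⟩

/-- A finite system of rules and of halting boxes. -/
structure System where
  N : ℕ
  rule : Fin N → Rule
  K : ℕ
  halt : Fin K → Box

/-- The sources (including the halting boxes) are pairwise disjoint, the targets are pairwise
disjoint, everything lies in the open unit square, and each rule scales at most one coordinate. -/
structure System.Good (S : System) : Prop where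
  pos : ∀ i, 0 < (S.rule i).a ∧ 0 < (S.rule i).b ∧ ((S.rule i).a = 1 ∨ (S.rule i).b = 1)
  src_in : ∀ i, (S.rule i).src.Inside
  tgt_in : ∀ i, (S.rule i).tgt.Inside
  halt_in : ∀ i, (S.halt i).Inside
  src_sep : ∀ i j, i ≠ j → (S.rule i).src.Sep (S.rule j).src
  tgt_sep : ∀ i j, i ≠ j → (S.rule i).tgt.Sep (S.rule j).tgt
  halt_sep : ∀ i j, i ≠ j → (S.halt i).Sep (S.halt j)
  src_halt_sep : ∀ i j, (S.rule i).src.Sep (S.halt j)

/-- one step of the system -/
def System.Step (S : System) (p p' : ℚ × ℚ) : Prop :=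
  ∃ i, (S.rule i).src.Mem p ∧ p' = (S.rule i).map p

/-- `p` lies in a halting box -/
def System.Halted (S : System) (p : ℚ × ℚ) : Prop := ∃ i, (S.halt i).Mem p

/-- The orbit of the start point of `(M, w)` enters a halting box if `M` halts on `w`, and runs
forever otherwise. -/
def System.Simulates (S : System) (start : Machine × List ℕ → RatCode × RatCode) : Prop :=
  ∀ M w, ∃ orbit : ℕ → ℚ × ℚ,
    orbit 0 = (ratVal (start (M, w)).1, ratVal (start (M, w)).2) ∧
    ((M.HaltsOn w ∧ ∃ N, (∀ n < N, S.Step (orbit n) (orbit (n + 1))) ∧ S.Halted (orbit N)) ∨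
      (¬ M.HaltsOn w ∧ ∀ n, S.Step (orbit n) (orbit (n + 1))))

/-- Module D (discrete part): a good system simulating all Turing machines, with computable start
point. -/
def StmtD : Prop := ∃ S : System, S.Good ∧
  ∃ start : Machine × List ℕ → RatCode × RatCode, Computable start ∧ S.Simulates start

/-- Module B (flow part), given module C. -/
def StmtB : Prop := ∀ S : System, S.Good →
  ∀ start : Machine × List ℕ → RatCode × RatCode, Computable start → S.Simulates start → Statement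

/-- Module C: uniqueness of classical solutions. -/
def StmtC : Prop := ∀ (ν : ℝ) (f : ℝ → (Fin 3 → ℝ) → (Fin 3 → ℝ)), 0 < ν → ∀ T : ℝ, 0 < T →
  ∀ (u v : ℝ → (Fin 3 → ℝ) → (Fin 3 → ℝ)) (p π : ℝ → (Fin 3 → ℝ) → ℝ),
    IsClassicalSolution ν f (Icc 0 T) u p → IsClassicalSolution ν f (Icc 0 T) v π →
    ∀ t ∈ Icc 0 T, ∀ x, v t x = u t x ∧ π t x = p t x

/-! ## Module B1/B2: bumps -/

/-- B1a -/
def StmtRhoSmooth : Prop := ContDiff ℝ ∞ rho ∧ 0 < kappa ∧ (∀ s, 1 ≤ |s| → rho s = 0) ∧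
  (∀ s, 0 ≤ rho s) ∧ ∀ l, ContDiff ℝ ∞ (plateau l) ∧ (∀ s, HasDerivAt (plateau l) (rho s - rho (s - l)) s)

/-- B1b: values of the plateau -/
def StmtPlateau : Prop := ∀ l : ℝ, 2 ≤ l →
  (∀ s, s ≤ -1 → plateau l s = 0) ∧ (∀ s, 1 ≤ s → s ≤ l - 1 → plateau l s = kappa) ∧
  (∀ s, l + 1 ≤ s → plateau l s = 0)

/-- B1c: valid bumps are smooth with compact support, periodization is smooth and periodic,
and the derivative of a bump is a rational combination of bumps. -/
def StmtBump : Prop := ∀ g : Bump, g.Valid →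
  ContDiff ℝ ∞ g.fn ∧ HasCompactSupport g.fn ∧ ContDiff ℝ ∞ (periodize g.fn) ∧
  ∃ L : List (RatCode × Bump), (∀ c ∈ L, c.2.Valid) ∧
    (∀ s, HasDerivAt g.fn (L.map fun c => (ratVal c.1 : ℝ) * c.2.fn s).sum s) ∧
    ∀ s, HasDerivAt (periodize g.fn) (L.map fun c => (ratVal c.1 : ℝ) * periodize c.2.fn s).sum s

/-- B2: cutoffs. For `0 < c - δ`, `c ≤ d`, `d + δ < 1` there is a valid bump `g` with
`P[g] = κ` on `[c, d]`, `P[g] = 0` on `[0, 1] \ (c - δ, d + δ)`, and a valid bump `g'` with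
`P[g'](y) = κ y` on `[c, d]`, `P[g'] = 0` on `[0, 1] \ (c - δ, d + δ)`. -/
def StmtCut : Prop := ∀ c d δ : ℚ, 0 < δ → 0 < c - δ → c ≤ d → d + δ < 1 →
  ∃ g g' : Bump, g.Valid ∧ g'.Valid ∧
    (∀ y : ℝ, (c : ℝ) ≤ y → y ≤ d → periodize g.fn y = kappa ∧ periodize g'.fn y = kappa * y) ∧
    (∀ y : ℝ, 0 ≤ y → y ≤ 1 → (y ≤ c - δ ∨ (d : ℝ) + δ ≤ y) →
      periodize g.fn y = 0 ∧ periodize g'.fn y = 0)

/-! ## Module B3: the four shears -/

/-- A finite sum of terms `q κ^n h₁(x₁) h₂(x₂) h₃(x₃)`. -/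
abbrev Spatial : Type := List (RatCode × ℤ × (Fin 3 → List Bump))

def Spatial.Valid (L : Spatial) : Prop := ∀ c ∈ L, ∀ i, ∀ g ∈ c.2.2 i, g.Valid

noncomputable def Spatial.eval (L : Spatial) (x : Fin 3 → ℝ) : ℝ :=
  (L.map fun c => (ratVal c.1 : ℝ) * kappa ^ c.2.1 *
    ∏ i, ((c.2.2 i).map fun g => periodize g.fn (x i)).prod).sum

/-- the directions of the four shears: `z, x, y, z` -/
def dir (k : Fin 4) : Fin 3 := ![2, 0, 1, 2] k

/-- Four shear profiles realising a good system: for a point `(x, y)` in the source of a rule, with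
`z = 0`, the four shears lead to `(x', y', 0)`, the image under the rule, and the third coordinate
stays in `[0, h]` with `h < H - r`; for a point in a halting box the first shear leads to the third
coordinate `H`. Here `0 < r`, `0 < H - r`, `H + r < 1`. -/
structure Shears (S : System) where
  F : Fin 4 → Spatial
  valid : ∀ k, (F k).Valid
  /-- the profile does not depend on the coordinate in the direction of the shear -/
  indep : ∀ k x s, (F k).eval (Function.update x (dir k) s) = (F k).eval x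
  H : ℚ
  r : ℚ
  h : ℚ
  r_pos : 0 < r
  h_nonneg : 0 ≤ h
  h_lt : h < H - r
  H_lt : H + r < 1
  rules : ∀ (i : Fin S.N) (p : ℚ × ℚ), (S.rule i).src.Mem p →
    ∃ z : ℝ, 0 ≤ z ∧ z ≤ h ∧ (F 0).eval ![p.1, p.2, 0] = z ∧
      (F 1).eval ![p.1, p.2, z] = ((S.rule i).map p).1 - p.1 ∧
      (F 2).eval ![((S.rule i).map p).1, p.2, z] = ((S.rule i).map p).2 - p.2 ∧
      (F 3).eval ![((S.rule i).map p).1, ((S.rule i).map p).2, z] = -z
  halts : ∀ p : ℚ × ℚ, S.Halted p → (F 0).eval ![p.1, p.2, 0] = H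

/-- B3 -/
def StmtShears : Prop := ∀ S : System, S.Good → Nonempty (Shears S)

/-- B4/B5: from the shears to the statement. -/
def StmtFlow : Prop := ∀ (S : System) (_ : Shears S),
  ∀ start : Machine × List ℕ → RatCode × RatCode, Computable start → S.Simulates start → Statement

end Vale.Agent.P113
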